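import Mathlib

/-!
# Sequences whose gap sequence has few descents

Counting lemmas for strictly increasing sequences of natural numbers: a window on which the
gaps are nondecreasing and which has no `c + 2` consecutive terms in arithmetic progression is
long (`growth_window`); combining the windows between consecutive descents of the gap sequence
gives `descent_bound`.
-/

namespace Vale.Agent.H29.P057

/-- The counting step on a window: if the gaps of `b` are nondecreasing up to index `N` and no
`c + 2` consecutive terms among `b 0, ..., b N` are in arithmetic progression, then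
`N (N + 1) ≤ 2 c (b N - b 0)`. -/
theorem growth_window (b : ℕ → ℕ) (hmono : StrictMono b) (c N : ℕ) (hc : 1 ≤ c)
    (hconv : ∀ n, n + 2 ≤ N → b (n + 1) - b n ≤ b (n + 2) - b (n + 1))
    (hno : ∀ n d, 0 < d → n + c + 1 ≤ N → ∃ i < c + 2, b (n + i) ≠ b n + i * d) :
    2 * c * b 0 + N * (N + 1) ≤ 2 * c * b N := by
  obtain ⟨g, hg⟩ : ∃ g : ℕ → ℕ, ∀ n, g n = b (n + 1) - b n :=
    ⟨fun n => b (n + 1) - b n, fun _ => rfl⟩
  have hlt : ∀ n, b n < b (n + 1) := fun n => hmono (Nat.lt_succ_self n)
  have hg1 : ∀ n, 1 ≤ g n := fun n => by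
    have := hlt n
    rw [hg n]; omega
  have hgm : ∀ i j, i ≤ j → j + 1 ≤ N → g i ≤ g j := by
    intro i j hij
    induction j, hij using Nat.le_induction with
    | base => intro _; exact le_rfl
    | succ j hij ih =>
      intro hj
      have h1 := ih (by omega)
      have h2 : g j ≤ g (j + 1) := by
        rw [hg j, hg (j + 1)]; exact hconv j (by omega)
      exact le_trans h1 h2
  have ha : ∀ n, b (n + 1) = b n + g n := fun n => by
    have := hlt n
    rw [hg n]; omega
  have hA : ∀ n, n + c + 1 ≤ N → g n < g (n + c) := by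
    intro n hn
    by_contra hcon
    push Not at hcon
    have heq : ∀ j, j ≤ c → g (n + j) = g n := by
      intro j hj
      have h1 : g n ≤ g (n + j) := hgm n (n + j) (Nat.le_add_right n j) (by omega)
      have h2 : g (n + j) ≤ g (n + c) := hgm (n + j) (n + c) (by omega) (by omega)
      omega
    have hap : ∀ i, i ≤ c + 1 → b (n + i) = b n + i * g n := by
      intro i
      induction i with
      | zero => intro _; simp
      | succ i ih =>
        intro hi
        have h3 := ih (by omega)
        have h4 := ha (n + i)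
        have h5 := heq i (by omega)
        have h6 : n + (i + 1) = n + i + 1 := by ring
        rw [h6, h4, h3, h5]; ring
    obtain ⟨i, hi, hi2⟩ := hno n (g n) (hg1 n) hn
    exact hi2 (hap i (by omega))
  have hB : ∀ m, m * c + 1 ≤ N → m + 1 ≤ g (m * c) := by
    intro m
    induction m with
    | zero => intro _; simpa using hg1 0
    | succ m ih =>
      intro hm
      have h2 : (m + 1) * c = m * c + c := by ring
      rw [h2] at hm ⊢
      have h1 := hA (m * c) hm
      have h3 := ih (by omega)
      omega
  have hC : ∀ n, n + 1 ≤ N → n + 1 ≤ c * g n := by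
    intro n hn
    have h0 : n / c * c ≤ n := Nat.div_mul_le_self n c
    have h1 : g (n / c * c) ≤ g n := hgm _ _ h0 hn
    have h2 := hB (n / c) (by omega)
    have h3 : n < c * (n / c + 1) := Nat.lt_mul_div_succ n (by omega)
    calc n + 1 ≤ c * (n / c + 1) := h3
      _ ≤ c * g n := Nat.mul_le_mul_left c (by omega)
  have hD : ∀ n, n ≤ N → 2 * c * b 0 + n * (n + 1) ≤ 2 * c * b n := by
    intro n
    induction n with
    | zero => intro _; simp
    | succ n ih =>
      intro hn
      have h1 := hC n hn
      have h2 := ha n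
      have h3 := ih (by omega)
      rw [h2]
      nlinarith
  exact hD N le_rfl

/-- The Cauchy-Schwarz step for two consecutive blocks. -/
theorem sq_add_le (S l d u v : ℕ) (h1 : S ^ 2 ≤ d * u) (h2 : l ^ 2 ≤ v) :
    (S + l) ^ 2 ≤ (d + 1) * (u + v) := by
  rcases Nat.eq_zero_or_pos d with hd | hd
  · subst hd
    have hS : S = 0 := by
      have : S ^ 2 = 0 := by simpa using h1
      simpa using this
    subst hS
    nlinarith
  · have key : d * (S + l) ^ 2 ≤ d * ((d + 1) * (u + v)) := by
      zify at h1 h2 ⊢
      nlinarith [sq_nonneg ((S : ℤ) - d * l),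
        mul_nonneg (by positivity : (0 : ℤ) ≤ (d : ℤ) + 1) (sub_nonneg.mpr h1),
        mul_nonneg (by positivity : (0 : ℤ) ≤ (d : ℤ) * ((d : ℤ) + 1)) (sub_nonneg.mpr h2)]
    exact Nat.le_of_mul_le_mul_left key hd

/-- If no `c + 2` consecutive terms among `a 0, ..., a N` are in arithmetic progression and
`E M` counts the descents of the gap sequence among its first `M + 1` terms, then
`(M + 1) ^ 2 ≤ 2 c (E M + 1) (a (M + 1) - a 0)` whenever `M + 1 ≤ N`. -/
theorem descent_bound (a E : ℕ → ℕ) (hmono : StrictMono a)
    (hEs : ∀ M, E (M + 1) =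
      E M + (if a (M + 2) - a (M + 1) < a (M + 1) - a M then 1 else 0))
    (c N : ℕ) (hc : 1 ≤ c)
    (hno : ∀ n d, 0 < d → n + c + 1 ≤ N → ∃ i < c + 2, a (n + i) ≠ a n + i * d) :
    ∀ M, M + 1 ≤ N →
      (M + 1) ^ 2 + 2 * c * (E M + 1) * a 0 ≤ 2 * c * (E M + 1) * a (M + 1) := by
  have hle : ∀ i j, i ≤ j → a i ≤ a j := fun i j hij => hmono.monotone hij
  -- the conclusion from the invariant
  have hCJ : ∀ M s x, M + 1 ≤ N → s ≤ M → a s = a 0 + x →
      (∀ i, s ≤ i → i < M → a (i + 1) - a i ≤ a (i + 2) - a (i + 1)) →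
      s ^ 2 ≤ 2 * c * E M * x →
      (M + 1) ^ 2 + 2 * c * (E M + 1) * a 0 ≤ 2 * c * (E M + 1) * a (M + 1) := by
    intro M s x hM hs hx hmon hsq
    have hb : StrictMono (fun n => a (s + n)) := fun i j hij => hmono (by omega)
    have hW := growth_window (fun n => a (s + n)) hb c (M + 1 - s) hc
      (by
        intro n hn
        have h := hmon (s + n) (by omega) (by omega)
        have e1 : s + (n + 1) = s + n + 1 := by ring
        have e2 : s + (n + 2) = s + n + 2 := by ring
        simp only [e1, e2]
        exact h)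
      (by
        intro n d hd hn
        obtain ⟨i, hi, hi2⟩ := hno (s + n) d hd (by omega)
        refine ⟨i, hi, ?_⟩
        have e1 : s + (n + i) = s + n + i := by ring
        simp only [e1]
        exact hi2)
    have e0 : s + (M + 1 - s) = M + 1 := by omega
    simp only [Nat.add_zero, e0] at hW
    obtain ⟨y, hy⟩ : ∃ y, a (M + 1) = a s + y := Nat.exists_eq_add_of_le (hle s (M + 1) (by omega))
    obtain ⟨l, hl⟩ : ∃ l, l = M + 1 - s := ⟨_, rfl⟩
    rw [← hl] at hW
    have hl2 : l ^ 2 ≤ 2 * c * y := by
      rw [hy] at hW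
      nlinarith
    have hsq' : s ^ 2 ≤ E M * (2 * c * x) := by
      calc s ^ 2 ≤ 2 * c * E M * x := hsq
        _ = E M * (2 * c * x) := by ring
    have key := sq_add_le s l (E M) (2 * c * x) (2 * c * y) hsq' hl2
    have hsl : s + l = M + 1 := by omega
    rw [hsl] at key
    rw [hy, hx]
    nlinarith
  -- the invariant
  have hJ : ∀ M, M ≤ N → ∃ s x, s ≤ M ∧ a s = a 0 + x ∧
      (∀ i, s ≤ i → i < M → a (i + 1) - a i ≤ a (i + 2) - a (i + 1)) ∧
      s ^ 2 ≤ 2 * c * E M * x := by
    intro M
    induction M with
    | zero =>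
      intro _
      exact ⟨0, 0, le_rfl, by simp, fun i _ hi => absurd hi (Nat.not_lt_zero i), by simp⟩
    | succ M ih =>
      intro hM
      obtain ⟨s, x, hs, hx, hmon, hsq⟩ := ih (by omega)
      by_cases hd : a (M + 2) - a (M + 1) < a (M + 1) - a M
      · have hE : E (M + 1) = E M + 1 := by rw [hEs M, if_pos hd]
        have hC := hCJ M s x hM hs hx hmon hsq
        obtain ⟨x', hx'⟩ : ∃ x', a (M + 1) = a 0 + x' :=
          Nat.exists_eq_add_of_le (hle 0 (M + 1) (Nat.zero_le _))
        refine ⟨M + 1, x', le_rfl, hx', fun i h1 h2 => absurd h2 (by omega), ?_⟩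
        rw [hE]
        rw [hx'] at hC
        nlinarith
      · have hE : E (M + 1) = E M := by rw [hEs M, if_neg hd]; simp
        refine ⟨s, x, by omega, hx, ?_, by rw [hE]; exact hsq⟩
        intro i h1 h2
        rcases Nat.lt_or_ge i M with h3 | h3
        · exact hmon i h1 h3
        · have : i = M := by omega
          subst this
          exact not_lt.mp hd
  intro M hM
  obtain ⟨s, x, hs, hx, hmon, hsq⟩ := hJ M (by omega)
  exact hCJ M s x hM hs hx hmon hsq

end Vale.Agent.H29.P057
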